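import Mathlib

/-! # P308: near-perfect versus perfect matchings in graphs of bounded independence number -/

namespace Vale.P308

open Finset

variable {V : Type*} [Fintype V] [DecidableEq V] {G : SimpleGraph V}

/-- perfect matchings as fixed-point-free involutions along edges -/
def IsPM (G : SimpleGraph V) (f : V → V) : Prop :=
  (∀ x, f (f x) = x) ∧ ∀ x, G.Adj x (f x)

/-- near-perfect matchings with uncovered vertices `u`, `v` -/
def IsNear (G : SimpleGraph V) (g : V → V) (u v : V) : Prop :=
  (∀ x, g (g x) = x) ∧ u ≠ v ∧ g u = u ∧ g v = v ∧ ∀ x, x ≠ u → x ≠ v → G.Adj x (g x)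

/-- the alternating path starting at `u` -/
def E (f g : V → V) (u : V) : ℕ → V
  | 0 => u
  | l + 1 => g (f (E f g u l))

section path

variable {f g : V → V} {u v : V}

omit [Fintype V] [DecidableEq V] in
theorem E_succ (l : ℕ) : E f g u (l + 1) = g (f (E f g u l)) := rfl

omit [Fintype V] [DecidableEq V] in
theorem g_E (hg : ∀ x, g (g x) = x) (l : ℕ) : g (E f g u (l + 1)) = f (E f g u l) := by
  rw [E_succ, hg]

omit [Fintype V] [DecidableEq V] in
/-- the vertices `E a` are pairwise different as long as the path does not end -/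
theorem E_inj (hf : ∀ x, f (f x) = x) (hg : ∀ x, g (g x) = x) (hu : g u = u) {m : ℕ}
    (hm : ∀ l < m, g (f (E f g u l)) ≠ f (E f g u l)) :
    ∀ a d, a + (d + 1) ≤ m → E f g u a ≠ E f g u (a + (d + 1)) := by
  intro a
  induction a with
  | zero =>
    intro d hd h
    rw [show 0 + (d + 1) = d + 1 by ring] at h
    have h1 : f (E f g u d) = u := by
      have h2 := g_E (f := f) (u := u) hg d
      rw [← h] at h2
      rw [← h2]
      exact hu
    exact hm d (by omega) (by rw [h1]; exact hu)
  | succ a ih =>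
    intro d hd h
    apply ih d (by omega)
    have e : a + 1 + (d + 1) = (a + (d + 1)) + 1 := by ring
    rw [e, E_succ, E_succ] at h
    have h1 := congrArg g h
    rw [hg, hg] at h1
    have h2 := congrArg f h1
    rwa [hf, hf] at h2

omit [Fintype V] [DecidableEq V] in
theorem E_ne (hf : ∀ x, f (f x) = x) (hg : ∀ x, g (g x) = x) (hu : g u = u) {m : ℕ}
    (hm : ∀ l < m, g (f (E f g u l)) ≠ f (E f g u l)) {a b : ℕ} (ha : a ≤ m) (hb : b ≤ m)
    (hab : a ≠ b) : E f g u a ≠ E f g u b := by
  rcases lt_or_gt_of_ne hab with h | h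
  · obtain ⟨d, rfl⟩ : ∃ d, b = a + (d + 1) := ⟨b - a - 1, by omega⟩
    exact E_inj hf hg hu hm a d hb
  · obtain ⟨d, rfl⟩ : ∃ d, a = b + (d + 1) := ⟨a - b - 1, by omega⟩
    exact (E_inj hf hg hu hm b d ha).symm

omit [Fintype V] [DecidableEq V] in
theorem E_ne_O_aux (hf : ∀ x, f (f x) = x) (hg : ∀ x, g (g x) = x) (hfx : ∀ x, f x ≠ x)
    {m : ℕ} (hm : ∀ l < m, g (f (E f g u l)) ≠ f (E f g u l)) :
    ∀ d a, a + d ≤ m → E f g u a ≠ f (E f g u (a + d)) := by
  intro d
  induction d using Nat.strong_induction_on with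
  | _ d ih =>
    intro a had h
    rcases d with _ | _ | d
    · exact hfx _ h.symm
    · -- b = a + 1
      have h1 : f (E f g u a) = E f g u (a + 1) := by
        have := congrArg f h
        rwa [hf] at this
      exact hm a (by omega) h1.symm
    · have h1 : f (E f g u a) = E f g u (a + (d + 1 + 1)) := by
        have := congrArg f h
        rwa [hf] at this
      have h2 : E f g u (a + 1) = f (E f g u (a + 1 + d)) := by
        rw [E_succ, h1]
        have e : a + (d + 1 + 1) = (a + 1 + d) + 1 := by ring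
        rw [e, g_E hg]
      exact ih d (by omega) (a + 1) (by omega) h2

omit [Fintype V] [DecidableEq V] in
theorem E_ne_O (hf : ∀ x, f (f x) = x) (hg : ∀ x, g (g x) = x) (hfx : ∀ x, f x ≠ x)
    {m : ℕ} (hm : ∀ l < m, g (f (E f g u l)) ≠ f (E f g u l)) {a b : ℕ} (ha : a ≤ m)
    (hb : b ≤ m) : E f g u a ≠ f (E f g u b) := by
  intro h
  rcases le_or_gt a b with hab | hab
  · obtain ⟨d, rfl⟩ : ∃ d, b = a + d := ⟨b - a, by omega⟩
    exact E_ne_O_aux hf hg hfx hm d a hb h
  · obtain ⟨c, rfl⟩ : ∃ c, a = c + 1 := ⟨a - 1, by omega⟩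
    have h1 : f (E f g u c) = E f g u (b + 1) := by
      rw [← g_E (f := f) (u := u) hg c, h]
      rfl
    rcases Nat.eq_or_lt_of_le (show b ≤ c by omega) with hbc | hbc
    · subst hbc
      exact hm b (by omega) h1.symm
    · obtain ⟨d, rfl⟩ : ∃ d, c = b + 1 + d := ⟨c - b - 1, by omega⟩
      exact E_ne_O_aux hf hg hfx hm d (b + 1) (by omega) h1.symm

end path


section surgery

variable {f g : V → V} {u v : V}

omit [Fintype V] [DecidableEq V] in
theorem IsPM.ne (hf : IsPM G f) (x : V) : f x ≠ x := fun h => by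
  have := hf.2 x
  rw [h] at this
  exact G.loopless.irrefl x this

omit [Fintype V] [DecidableEq V] in
theorem IsNear.adj (hg : IsNear G g u v) {x : V} (hx : g x ≠ x) : G.Adj x (g x) := by
  obtain ⟨-, -, hu, hv, h⟩ := hg
  refine h x ?_ ?_
  · rintro rfl; exact hx hu
  · rintro rfl; exact hx hv

theorem surgery (hf : IsPM G f) (hg : IsNear G g u v) {m p r b : ℕ}
    (hm : ∀ l < m, g (f (E f g u l)) ≠ f (E f g u l)) (hpr : p < r) (hrb : r < b) (hbm : b < m)
    (h1 : G.Adj (E f g u p) (E f g u r)) (h2 : G.Adj (f (E f g u p)) (f (E f g u b))) :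
    ∃ f' : V → V, IsPM G f' ∧
      (univ.filter (fun x => f' x ≠ g x)).card < (univ.filter (fun x => f x ≠ g x)).card := by
  classical
  have hff := hf.1
  have hgg := hg.1
  have hu := hg.2.2.1
  have finj : ∀ {a b : V}, f a = f b → a = b := fun {a b} h => by
    rw [← hff a, h, hff]
  have EE : ∀ {a b : ℕ}, a ≤ m → b ≤ m → a ≠ b → E f g u a ≠ E f g u b :=
    fun ha hb hab => E_ne hff hgg hu hm ha hb hab
  have EO : ∀ {a b : ℕ}, a ≤ m → b ≤ m → E f g u a ≠ f (E f g u b) :=
    fun ha hb => E_ne_O hff hgg hf.ne hm ha hb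
  have OO : ∀ {a b : ℕ}, a ≤ m → b ≤ m → a ≠ b → f (E f g u a) ≠ f (E f g u b) :=
    fun ha hb hab h => EE ha hb hab (finj h)
  set R : V → Prop := fun x => ∃ l, r ≤ l ∧ l < b ∧ (x = f (E f g u l) ∨ x = E f g u (l + 1))
    with hR
  have RO : ∀ l, r ≤ l → l < b → R (f (E f g u l)) := fun l h h' => ⟨l, h, h', Or.inl rfl⟩
  have RE : ∀ l, r ≤ l → l < b → R (E f g u (l + 1)) := fun l h h' => ⟨l, h, h', Or.inr rfl⟩
  have nR1 : ¬ R (E f g u p) := by
    rintro ⟨l, h, h', h'' | h''⟩
    · exact EO (by omega) (by omega) h''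
    · exact EE (by omega) (by omega) (by omega) h''
  have nR2 : ¬ R (E f g u r) := by
    rintro ⟨l, h, h', h'' | h''⟩
    · exact EO (by omega) (by omega) h''
    · exact EE (by omega) (by omega) (by omega) h''
  have nR3 : ¬ R (f (E f g u p)) := by
    rintro ⟨l, h, h', h'' | h''⟩
    · exact OO (by omega) (by omega) (by omega) h''
    · exact EO (by omega) (by omega) h''.symm
  have nR4 : ¬ R (f (E f g u b)) := by
    rintro ⟨l, h, h', h'' | h''⟩
    · exact OO (by omega) (by omega) (by omega) h''
    · exact EO (by omega) (by omega) h''.symm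
  have Rg : ∀ x, R x → R (g x) := by
    rintro x ⟨l, h, h', rfl | rfl⟩
    · exact RE l h h'
    · rw [g_E hgg]; exact RO l h h'
  have Rne : ∀ x, R x → g x ≠ x := by
    rintro x ⟨l, h, h', rfl | rfl⟩
    · exact hm l (by omega)
    · rw [g_E hgg]; exact (EO (by omega) (by omega)).symm
  set f' : V → V := fun x =>
    if x = E f g u p then E f g u r else if x = E f g u r then E f g u p
    else if x = f (E f g u p) then f (E f g u b) else if x = f (E f g u b) then f (E f g u p)
    else if R x then g x else f x with hf'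
  have v1 : f' (E f g u p) = E f g u r := by simp [hf']
  have v2 : f' (E f g u r) = E f g u p := by
    have : E f g u r ≠ E f g u p := EE (by omega) (by omega) (by omega)
    simp [hf', this]
  have v3 : f' (f (E f g u p)) = f (E f g u b) := by
    have a1 : f (E f g u p) ≠ E f g u p := hf.ne _
    have a2 : f (E f g u p) ≠ E f g u r := (EO (by omega) (by omega)).symm
    simp [hf', a1, a2]
  have v4 : f' (f (E f g u b)) = f (E f g u p) := by
    have a1 : f (E f g u b) ≠ E f g u p := (EO (by omega) (by omega)).symm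
    have a2 : f (E f g u b) ≠ E f g u r := (EO (by omega) (by omega)).symm
    have a3 : f (E f g u b) ≠ f (E f g u p) := OO (by omega) (by omega) (by omega)
    simp [hf', a1, a2, a3]
  have v5 : ∀ x, R x → f' x = g x := by
    intro x hx
    have a1 : x ≠ E f g u p := by rintro rfl; exact nR1 hx
    have a2 : x ≠ E f g u r := by rintro rfl; exact nR2 hx
    have a3 : x ≠ f (E f g u p) := by rintro rfl; exact nR3 hx
    have a4 : x ≠ f (E f g u b) := by rintro rfl; exact nR4 hx
    simp [hf', a1, a2, a3, a4, hx]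
  have v6 : ∀ x, x ≠ E f g u p → x ≠ E f g u r → x ≠ f (E f g u p) → x ≠ f (E f g u b) →
      ¬ R x → f' x = f x := by
    intro x a1 a2 a3 a4 hx
    simp [hf', a1, a2, a3, a4, hx]
  have out : ∀ x, x ≠ E f g u p → x ≠ E f g u r → x ≠ f (E f g u p) → x ≠ f (E f g u b) →
      ¬ R x → f' (f x) = x := by
    intro x a1 a2 a3 a4 hx
    have b1 : f x ≠ E f g u p := by
      intro h; apply a3; rw [← h, hff]
    have b2 : f x ≠ E f g u r := by
      intro h; apply hx
      have : x = f (E f g u r) := by rw [← h, hff]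
      rw [this]; exact RO r le_rfl hrb
    have b3 : f x ≠ f (E f g u p) := fun h => a1 (finj h)
    have b4 : f x ≠ f (E f g u b) := by
      intro h; apply hx
      rw [finj h]
      obtain ⟨c, rfl⟩ : ∃ c, b = c + 1 := ⟨b - 1, by omega⟩
      exact RE c (by omega) (by omega)
    have b5 : ¬ R (f x) := by
      rintro ⟨l, h, h', h'' | h''⟩
      · have hx' := finj h''
        rcases Nat.eq_or_lt_of_le h with hl | hl
        · subst hl; exact a2 hx'
        · obtain ⟨c, rfl⟩ : ∃ c, l = c + 1 := ⟨l - 1, by omega⟩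
          exact hx (by rw [hx']; exact RE c (by omega) (by omega))
      · have hx' : x = f (E f g u (l + 1)) := by rw [← h'', hff]
        rcases Nat.lt_or_ge (l + 1) b with hl | hl
        · exact hx (by rw [hx']; exact RO (l + 1) (by omega) hl)
        · have : l + 1 = b := by omega
          rw [this] at hx'
          exact a4 hx'
    rw [v6 _ b1 b2 b3 b4 b5, hff]
  have D : ∀ l, l < m → f (E f g u l) ≠ g (E f g u l) := by
    intro l hl h
    have : E f g u (l + 1) = E f g u l := by rw [E_succ, h, hgg]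
    exact EE (by omega) (by omega) (by omega) this
  have D' : ∀ l, l < m → f (f (E f g u l)) ≠ g (f (E f g u l)) := by
    intro l hl h
    rw [hff] at h
    exact EE (show l ≤ m by omega) (show l + 1 ≤ m by omega) (by omega) h
  refine ⟨f', ⟨?_, ?_⟩, ?_⟩
  · intro x
    by_cases a1 : x = E f g u p
    · subst a1; rw [v1, v2]
    by_cases a2 : x = E f g u r
    · subst a2; rw [v2, v1]
    by_cases a3 : x = f (E f g u p)
    · subst a3; rw [v3, v4]
    by_cases a4 : x = f (E f g u b)
    · subst a4; rw [v4, v3]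
    by_cases a5 : R x
    · rw [v5 x a5, v5 _ (Rg x a5), hgg]
    · rw [v6 x a1 a2 a3 a4 a5, out x a1 a2 a3 a4 a5]
  · intro x
    by_cases a1 : x = E f g u p
    · subst a1; rw [v1]; exact h1
    by_cases a2 : x = E f g u r
    · subst a2; rw [v2]; exact h1.symm
    by_cases a3 : x = f (E f g u p)
    · subst a3; rw [v3]; exact h2
    by_cases a4 : x = f (E f g u b)
    · subst a4; rw [v4]; exact h2.symm
    by_cases a5 : R x
    · rw [v5 x a5]; exact hg.adj (Rne x a5)
    · rw [v6 x a1 a2 a3 a4 a5]; exact hf.2 x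
  · apply Finset.card_lt_card
    rw [Finset.ssubset_iff_of_subset]
    · refine ⟨f (E f g u r), ?_, ?_⟩
      · simp only [mem_filter, mem_univ, true_and]
        exact D' r (by omega)
      · simp only [mem_filter, mem_univ, true_and, not_not]
        exact v5 _ (RO r le_rfl hrb)
    · intro x
      simp only [mem_filter, mem_univ, true_and]
      intro hx
      by_cases a1 : x = E f g u p
      · subst a1; exact D p (by omega)
      by_cases a2 : x = E f g u r
      · subst a2; exact D r (by omega)
      by_cases a3 : x = f (E f g u p)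
      · subst a3; exact D' p (by omega)
      by_cases a4 : x = f (E f g u b)
      · subst a4; exact D' b (by omega)
      by_cases a5 : R x
      · exact absurd (v5 x a5) hx
      · rwa [v6 x a1 a2 a3 a4 a5] at hx

theorem truncate (hf : IsPM G f) (hg : IsNear G g u v) {t : ℕ}
    (hm : ∀ l < t, g (f (E f g u l)) ≠ f (E f g u l)) (ht : g (f (E f g u t)) = f (E f g u t)) :
    ∃ f' : V → V, IsPM G f' ∧ (univ.filter (fun x => f' x ≠ g x)).card ≤ 2 * (t + 1) := by
  classical
  have hff := hf.1
  have hgg := hg.1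
  have hu := hg.2.2.1
  set P : Finset V := (range (t + 1)).image (E f g u) ∪ (range (t + 1)).image (fun l => f (E f g u l))
    with hP
  have PE : ∀ l, l ≤ t → E f g u l ∈ P := fun l hl =>
    mem_union_left _ (mem_image_of_mem _ (mem_range.2 (by omega)))
  have PO : ∀ l, l ≤ t → f (E f g u l) ∈ P := fun l hl =>
    mem_union_right _ (mem_image.2 ⟨l, mem_range.2 (by omega), rfl⟩)
  have Pc : ∀ x, x ∈ P → ∃ l ≤ t, x = E f g u l ∨ x = f (E f g u l) := by
    intro x hx
    rw [hP, mem_union, mem_image, mem_image] at hx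
    rcases hx with ⟨l, hl, rfl⟩ | ⟨l, hl, rfl⟩
    · exact ⟨l, by have := mem_range.1 hl; omega, Or.inl rfl⟩
    · exact ⟨l, by have := mem_range.1 hl; omega, Or.inr rfl⟩
  have Pf : ∀ x, x ∈ P → f x ∈ P := by
    intro x hx
    obtain ⟨l, hl, rfl | rfl⟩ := Pc x hx
    · exact PO l hl
    · rw [hff]; exact PE l hl
  have Pg : ∀ x, x ∈ P → g x ∈ P := by
    intro x hx
    obtain ⟨l, hl, rfl | rfl⟩ := Pc x hx
    · rcases l with _ | l
      · change g u ∈ P
        rw [hu]; exact PE 0 (by omega)
      · rw [g_E hgg]; exact PO l (by omega)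
    · rcases Nat.eq_or_lt_of_le hl with h | h
      · subst h; rw [ht]; exact PO _ le_rfl
      · exact PE (l + 1) h
  have Ov : f (E f g u t) = v := by
    by_contra h
    have h3 : f (E f g u t) ≠ u := by
      intro h4
      exact E_ne_O hff hgg hf.ne hm (Nat.zero_le t) le_rfl h4.symm
    have h5 := hg.2.2.2.2 _ h3 h
    rw [ht] at h5
    exact G.loopless.irrefl _ h5
  have hnot : ∀ x, x ∉ P → G.Adj x (g x) := by
    intro x hx
    refine hg.2.2.2.2 x ?_ ?_
    · rintro rfl; exact hx (PE 0 (by omega))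
    · rintro rfl; exact hx (by rw [← Ov]; exact PO t le_rfl)
  refine ⟨fun x => if x ∈ P then f x else g x, ⟨?_, ?_⟩, ?_⟩
  · intro x
    by_cases hx : x ∈ P
    · simp only [hx, if_true, Pf x hx, hff]
    · have h2 : g x ∉ P := fun h => hx (by have := Pg _ h; rwa [hgg] at this)
      simp only [hx, if_false, h2, hgg]
  · intro x
    by_cases hx : x ∈ P
    · simp only [hx, if_true]; exact hf.2 x
    · simp only [hx, if_false]; exact hnot x hx
  · calc (univ.filter (fun x => (if x ∈ P then f x else g x) ≠ g x)).card ≤ P.card := by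
          apply Finset.card_le_card
          intro x
          simp only [mem_filter, mem_univ, true_and]
          intro hx
          by_contra h
          exact hx (by simp [h])
      _ ≤ ((range (t + 1)).image (E f g u)).card
          + ((range (t + 1)).image (fun l => f (E f g u l))).card := card_union_le _ _
      _ ≤ (range (t + 1)).card + (range (t + 1)).card :=
          add_le_add card_image_le card_image_le
      _ = 2 * (t + 1) := by rw [card_range]; ring

theorem chords {k : ℕ} (hα : ∀ s : Finset V, (∀ x ∈ s, ∀ y ∈ s, ¬ G.Adj x y) → s.card ≤ k)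
    (hf : IsPM G f) (hg : IsNear G g u v)
    (hm : ∀ l < (k + 1) * (k + 1), g (f (E f g u l)) ≠ f (E f g u l)) :
    ∃ p r b, p < r ∧ r < b ∧ b < (k + 1) * (k + 1) ∧
      G.Adj (E f g u p) (E f g u r) ∧ G.Adj (f (E f g u p)) (f (E f g u b)) := by
  classical
  have hff := hf.1
  have hgg := hg.1
  have hu := hg.2.2.1
  have finj : ∀ {a b : V}, f a = f b → a = b := fun {a b} h => by
    rw [← hff a, h, hff]
  set N := (k + 1) * (k + 1) with hN
  have EE : ∀ {a b : ℕ}, a ≤ N → b ≤ N → a ≠ b → E f g u a ≠ E f g u b :=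
    fun ha hb hab => E_ne hff hgg hu hm ha hb hab
  -- a general pigeonhole
  have pig : ∀ e : ℕ → V, ∀ a : ℕ, (∀ i j, a ≤ i → i < a + (k + 1) → a ≤ j → j < a + (k + 1) →
      i ≠ j → e i ≠ e j) → ∃ i j, a ≤ i ∧ i < j ∧ j < a + (k + 1) ∧ G.Adj (e i) (e j) := by
    intro e a he
    by_contra hcon
    push Not at hcon
    have h1 := hα ((Finset.Ico a (a + (k + 1))).image e) ?_
    · rw [card_image_of_injOn, Nat.card_Ico] at h1
      · omega
      · intro i hi j hj hij
        by_contra hne
        rw [Finset.coe_Ico, Set.mem_Ico] at hi hj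
        exact he i j hi.1 hi.2 hj.1 hj.2 hne hij
    · intro x hx y hy hxy
      obtain ⟨i, hi, rfl⟩ := mem_image.1 hx
      obtain ⟨j, hj, rfl⟩ := mem_image.1 hy
      rw [Finset.mem_Ico] at hi hj
      rcases lt_trichotomy i j with h | h | h
      · exact hcon i j hi.1 h hj.2 hxy
      · subst h; exact G.loopless.irrefl _ hxy
      · exact hcon j i hj.1 h hi.2 hxy.symm
  have blk : ∀ l : ℕ, ∃ p r, l < k + 1 → l * (k + 1) ≤ p ∧ p < r ∧ r < (l + 1) * (k + 1) ∧
      G.Adj (E f g u p) (E f g u r) := by
    intro l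
    by_cases hl : l < k + 1
    · have hle : (l + 1) * (k + 1) ≤ N := by
        rw [hN]; exact Nat.mul_le_mul_right _ hl
      have he : (l + 1) * (k + 1) = l * (k + 1) + (k + 1) := by ring
      obtain ⟨i, j, h1, h2, h3, h4⟩ := pig (E f g u) (l * (k + 1)) (by
        intro i j _ hi _ hj hij
        exact EE (by omega) (by omega) hij)
      exact ⟨i, j, fun _ => ⟨h1, h2, by omega, h4⟩⟩
    · exact ⟨0, 0, fun h => absurd h hl⟩
  choose p r hpr using blk
  have mono : ∀ i j, i < j → j < k + 1 → r i < p j := by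
    intro i j hij hj
    obtain ⟨-, -, h3, -⟩ := hpr i (by omega)
    obtain ⟨h4, -, -, -⟩ := hpr j hj
    have : (i + 1) * (k + 1) ≤ j * (k + 1) := Nat.mul_le_mul_right _ hij
    omega
  have pN : ∀ i, i < k + 1 → p i < N := by
    intro i hi
    obtain ⟨-, h2, h3, -⟩ := hpr i hi
    have : (i + 1) * (k + 1) ≤ N := by rw [hN]; exact Nat.mul_le_mul_right _ hi
    omega
  obtain ⟨i, j, -, hij, hj, hadj⟩ := pig (fun l => f (E f g u (p l))) 0 (by
    intro i j _ hi _ hj hij h
    have h' := finj h
    have hi' : i < k + 1 := by omega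
    have hj' : j < k + 1 := by omega
    have hpp : p i ≠ p j := by
      rcases lt_or_gt_of_ne hij with hlt | hlt
      · have := mono i j hlt hj'
        have := (hpr i hi').2.1
        omega
      · have := mono j i hlt hi'
        have := (hpr j hj').2.1
        omega
    exact EE (pN i hi').le (pN j hj').le hpp h')
  have hj' : j < k + 1 := by omega
  have hi' : i < k + 1 := by omega
  exact ⟨p i, r i, p j, (hpr i hi').2.1, mono i j hij hj', pN j hj', (hpr i hi').2.2.2, hadj⟩

theorem key {k : ℕ} (hα : ∀ s : Finset V, (∀ x ∈ s, ∀ y ∈ s, ¬ G.Adj x y) → s.card ≤ k)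
    (hg : IsNear G g u v) : ∀ (c : ℕ) (f : V → V), IsPM G f →
      (univ.filter (fun x => f x ≠ g x)).card = c →
      ∃ f' : V → V, IsPM G f' ∧
        (univ.filter (fun x => f' x ≠ g x)).card ≤ 2 * ((k + 1) * (k + 1)) := by
  intro c
  induction c using Nat.strong_induction_on with
  | _ c ih =>
    intro f hf hc
    by_cases h : ∃ t, t < (k + 1) * (k + 1) ∧ g (f (E f g u t)) = f (E f g u t)
    · classical
      have hspec := Nat.find_spec h
      obtain ⟨f', h1, h2⟩ := truncate hf hg (t := Nat.find h) (by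
        intro l hl hfix
        exact Nat.find_min h hl ⟨by omega, hfix⟩) hspec.2
      exact ⟨f', h1, by omega⟩
    · push Not at h
      obtain ⟨p, r, b, hpr, hrb, hb, h1, h2⟩ := chords hα hf hg h
      obtain ⟨f', h3, h4⟩ := surgery hf hg h hpr hrb hb h1 h2
      exact ih _ (by omega) f' h3 rfl

end surgery

end Vale.P308
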