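import Vale.Agent.P308.Core

/-! # P308: counting -/

namespace Vale.P308

open Finset

variable {V : Type} [Fintype V] [DecidableEq V] {G : SimpleGraph V}

open Classical in
/-- overwrite `f` by the pairs in the list `h` -/
noncomputable def decode {M : ℕ} (f : V → V) (h : Fin M → V × V) (x : V) : V :=
  if e : ∃ i, (h i).1 = x then (h e.choose).2 else f x

theorem exists_code {f g : V → V} {M : ℕ} {u : V} (hu : f u ≠ g u)
    (hc : (univ.filter (fun x => f x ≠ g x)).card ≤ M) :
    ∃ h : Fin M → V × V, decode f h = g := by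
  classical
  set D := univ.filter (fun x => f x ≠ g x) with hD
  set e : Fin M → V := fun i =>
    if hi : i.1 < D.card then (D.equivFin.symm ⟨i.1, hi⟩ : D).1 else u with he
  have e1 : ∀ i, e i ∈ D := by
    intro i
    by_cases hi : i.1 < D.card
    · simp only [he, hi, dif_pos]
      exact (D.equivFin.symm ⟨i.1, hi⟩).2
    · simp only [he, hi, dif_neg, not_false_eq_true]
      simp [hD, hu]
  have e2 : ∀ x ∈ D, ∃ i, e i = x := by
    intro x hx
    refine ⟨⟨(D.equivFin ⟨x, hx⟩).1, lt_of_lt_of_le (D.equivFin ⟨x, hx⟩).2 hc⟩, ?_⟩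
    simp [he]
  refine ⟨fun i => (e i, g (e i)), ?_⟩
  funext x
  unfold decode
  split_ifs with h
  · have := h.choose_spec
    simp only at this ⊢
    rw [this]
  · by_contra hx
    have hx' : x ∈ D := by simp [hD, hx]
    obtain ⟨i, hi⟩ := e2 x hx'
    exact h ⟨i, hi⟩

theorem count {k : ℕ} (hα : ∀ s : Finset V, (∀ x ∈ s, ∀ y ∈ s, ¬ G.Adj x y) → s.card ≤ k)
    (hne : ∃ f, IsPM G f) :
    Nat.card {g : V → V // ∃ u v, IsNear G g u v} ≤
      Fintype.card V ^ (4 * ((k + 1) * (k + 1))) * Nat.card {f : V → V // IsPM G f} := by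
  classical
  obtain ⟨f₀, hf₀⟩ := hne
  have h1 : ∀ g : {g : V → V // ∃ u v, IsNear G g u v},
      ∃ φ : {f : V → V // IsPM G f} × (Fin (2 * ((k + 1) * (k + 1))) → V × V),
        decode φ.1.1 φ.2 = g.1 := by
    rintro ⟨g, u, v, hg⟩
    obtain ⟨f, hf, hc⟩ := key hα hg _ f₀ hf₀ rfl
    have hu : f u ≠ g u := by
      rw [hg.2.2.1]; exact hf.ne u
    obtain ⟨h, hh⟩ := exists_code hu hc
    exact ⟨(⟨f, hf⟩, h), hh⟩
  choose Φ hΦ using h1
  have hinj : Function.Injective Φ := by
    intro a b hab
    apply Subtype.ext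
    rw [← hΦ a, ← hΦ b, hab]
  have h2 := Nat.card_le_card_of_injective Φ hinj
  refine h2.trans (le_of_eq ?_)
  rw [Nat.card_prod, Nat.card_eq_fintype_card (α := Fin (2 * ((k + 1) * (k + 1))) → V × V),
    Fintype.card_fun, Fintype.card_prod, Fintype.card_fin, mul_comm, ← sq, ← pow_mul]
  congr 2
  ring

/-- the partner function of a matching -/
noncomputable def partner (M : G.Subgraph) (hM : M.IsMatching) (x : V) : V := by
  classical
  exact if h : x ∈ M.verts then (hM h).choose else x

theorem partner_adj {M : G.Subgraph} (hM : M.IsMatching) {x : V} (hx : x ∈ M.verts) :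
    M.Adj x (partner M hM x) := by
  unfold partner
  rw [dif_pos hx]
  exact (hM hx).choose_spec.1

theorem partner_eq {M : G.Subgraph} (hM : M.IsMatching) {x y : V} (h : M.Adj x y) :
    partner M hM x = y := by
  have hx : x ∈ M.verts := M.edge_vert h
  exact (hM hx).unique (partner_adj hM hx) h

theorem partner_not {M : G.Subgraph} (hM : M.IsMatching) {x : V} (hx : x ∉ M.verts) :
    partner M hM x = x := by
  unfold partner
  rw [dif_neg hx]

theorem partner_partner {M : G.Subgraph} (hM : M.IsMatching) (x : V) :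
    partner M hM (partner M hM x) = x := by
  by_cases hx : x ∈ M.verts
  · exact partner_eq hM (partner_adj hM hx).symm
  · rw [partner_not hM hx, partner_not hM hx]

theorem partner_ne {M : G.Subgraph} (hM : M.IsMatching) {x : V} :
    partner M hM x ≠ x ↔ x ∈ M.verts := by
  constructor
  · intro h
    by_contra hx
    exact h (partner_not hM hx)
  · intro hx h
    have := (partner_adj hM hx).adj_sub
    rw [h] at this
    exact G.loopless.irrefl x this

theorem partner_inj {M M' : G.Subgraph} (hM : M.IsMatching) (hM' : M'.IsMatching)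
    (h : partner M hM = partner M' hM') : M = M' := by
  have hv : ∀ x, x ∈ M.verts ↔ x ∈ M'.verts := by
    intro x
    rw [← partner_ne hM, ← partner_ne hM', h]
  apply SimpleGraph.Subgraph.ext
  · ext x; exact hv x
  · funext x y
    apply propext
    constructor
    · intro hxy
      have h1 := partner_eq hM hxy
      have h2 := partner_adj hM' ((hv x).1 (M.edge_vert hxy))
      rwa [← h, h1] at h2
    · intro hxy
      have h1 := partner_eq hM' hxy
      have h2 := partner_adj hM ((hv x).2 (M'.edge_vert hxy))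
      rwa [h, h1] at h2

theorem near_of {M : G.Subgraph} (hM : M.IsMatching) (h2 : M.vertsᶜ.ncard = 2) :
    ∃ u v, IsNear G (partner M hM) u v := by
  obtain ⟨u, v, huv, h⟩ := Set.ncard_eq_two.1 h2
  have hmem : ∀ x, x ∉ M.verts ↔ x = u ∨ x = v := by
    intro x
    rw [← Set.mem_compl_iff, h]
    simp
  refine ⟨u, v, partner_partner hM, huv, partner_not hM ((hmem u).2 (Or.inl rfl)),
    partner_not hM ((hmem v).2 (Or.inr rfl)), ?_⟩
  intro x hxu hxv
  have hx : x ∈ M.verts := by
    by_contra hx
    rcases (hmem x).1 hx with h | h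
    · exact hxu h
    · exact hxv h
  exact (partner_adj hM hx).adj_sub

theorem pm_of {M : G.Subgraph} (hM : M.IsPerfectMatching) : IsPM G (partner M hM.1) := by
  refine ⟨partner_partner hM.1, fun x => ?_⟩
  exact (partner_adj hM.1 (hM.2 x)).adj_sub

/-- the subgraph of an involution along edges -/
def ofPM {f : V → V} (hf : IsPM G f) : G.Subgraph where
  verts := Set.univ
  Adj x y := f x = y
  adj_sub := by
    rintro x y rfl
    exact hf.2 x
  edge_vert := fun _ => Set.mem_univ _
  symm := ⟨by
    rintro x y rfl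
    exact hf.1 x⟩

theorem ofPM_perfect {f : V → V} (hf : IsPM G f) : (ofPM hf).IsPerfectMatching := by
  refine ⟨?_, fun x => Set.mem_univ x⟩
  intro x _
  exact ⟨f x, rfl, fun y hy => Eq.symm hy⟩

theorem main {k : ℕ} (hα : ∀ s : Finset V, G.IsIndepSet (s : Set V) → s.card ≤ k)
    (hne : Nat.card {M : G.Subgraph // M.IsPerfectMatching} ≠ 0) :
    Nat.card {M : G.Subgraph // M.IsMatching ∧ M.vertsᶜ.ncard = 2} ≤
      Fintype.card V ^ (4 * (k + 1) ^ 2) * Nat.card {M : G.Subgraph // M.IsPerfectMatching} := by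
  classical
  have hα' : ∀ s : Finset V, (∀ x ∈ s, ∀ y ∈ s, ¬ G.Adj x y) → s.card ≤ k := by
    intro s hs
    apply hα s
    intro x hx y hy _
    exact hs x hx y hy
  have hex : ∃ f, IsPM G f := by
    rw [Nat.card_ne_zero] at hne
    obtain ⟨⟨M, hM⟩⟩ := hne.1
    exact ⟨_, pm_of hM⟩
  have h1 : Nat.card {M : G.Subgraph // M.IsMatching ∧ M.vertsᶜ.ncard = 2} ≤
      Nat.card {g : V → V // ∃ u v, IsNear G g u v} := by
    refine Nat.card_le_card_of_injective
      (fun M => ⟨partner M.1 M.2.1, near_of M.2.1 M.2.2⟩) ?_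
    intro M M' h
    exact Subtype.ext (partner_inj M.2.1 M'.2.1 (Subtype.ext_iff.1 h))
  have hfin : Finite {M : G.Subgraph // M.IsPerfectMatching} := (Nat.card_ne_zero.1 hne).2
  have h3 : Nat.card {f : V → V // IsPM G f} ≤
      Nat.card {M : G.Subgraph // M.IsPerfectMatching} := by
    refine Nat.card_le_card_of_injective (fun f => ⟨ofPM f.2, ofPM_perfect f.2⟩) ?_
    intro f f' h
    apply Subtype.ext
    funext x
    have h4 : (ofPM f.2).Adj x (f.1 x) := rfl
    have h5 : ofPM f.2 = ofPM f'.2 := Subtype.ext_iff.1 h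
    rw [h5] at h4
    have h6 : f'.1 x = f.1 x := h4
    exact h6.symm
  calc _ ≤ _ := h1
    _ ≤ _ := count hα' hex
    _ ≤ _ := by
      rw [show 4 * ((k + 1) * (k + 1)) = 4 * (k + 1) ^ 2 by ring]
      exact Nat.mul_le_mul_left _ h3

end Vale.P308
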